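import Vale.Agent.P141.H470.PSnum

/-!
# P141, line (A), flow part: the numbers of the shift error, number of near layers chosen

* `ps_fin` : `√(3 W) √P ≤ C t ^ (1 + gam) s ^ (5/4) √ez 8 ^ K r ^ (-del)` from, for every `Ln`,
  `W ≤ C1 ez 8 ^ K s ((1 + Ln) ^ 6 t ^ (e0 - c) r ^ (-e0) + (1 + Ln) ^ 6 2 ^ (-Ln) (r / t) ^ Cf)`, and
  `P ≤ C2 t ^ (2 - 2 c - 2 d - 2 k) s ^ (3/2) 8 ^ K`.
-/

namespace Vale.Agent.P141.H470.PSnum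

open Finset

noncomputable section

/-- **The numbers of the shift error, near layers chosen.** -/
theorem ps_fin {e0 Cf : ℝ} (he0 : 0 < e0) (hCf : 0 ≤ Cf) : ∃ Cn : ℝ, 1 ≤ Cn ∧
    ∀ c : ℝ, 0 ≤ c → c ≤ e0 / 32 → ∀ d : ℝ, 0 ≤ d → d ≤ e0 / 32 → ∀ k : ℝ, 0 ≤ k → k ≤ e0 / 32 →
    ∀ C1 C2 : ℝ, 0 ≤ C1 → 0 ≤ C2 →
    ∀ t r s ez W P : ℝ, 0 < t → t ≤ 1 → 1 ≤ r → 0 < s → 0 ≤ ez → ∀ K : ℕ,
    (∀ Ln : ℕ, 1 ≤ Ln → W ≤ C1 * (ez * 8 ^ K * s * ((1 + (Ln : ℝ)) ^ 6 *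
      (t ^ (e0 - c) * r ^ (-e0)) + (1 + (Ln : ℝ)) ^ 6 * ((2 : ℝ) ^ Ln)⁻¹ * (r / t) ^ Cf))) →
    P ≤ C2 * (t ^ (2 - 2 * c - 2 * d - 2 * k) * s ^ (3 / 2 : ℝ) * 8 ^ K) →
    √(3 * W) * √P ≤ √(6 * (C1 * Cn * Cn) * C2) *
      (t ^ (1 + e0 / 8) * s ^ (5 / 4 : ℝ) * √ez * 8 ^ K) * r ^ (-(e0 / 4)) := by
  obtain ⟨Cn, hCn, hL⟩ := exists_near (C0 := Cf + e0 + e0 / 4) (δ := e0 / 4) (by positivity)
    (by positivity)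
  refine ⟨Cn, hCn, ?_⟩
  intro c hc hc1 d hd hd1 k hk hk1 C1 C2 hC1 hC2 t r s ez W P ht ht1 hr hs hez K hW hP
  obtain ⟨gam, c1, d0, del, hg, hc10, hd0, hdel, eg, ec, ed, edel, H⟩ := ps_num he0
  have hX1 : 1 ≤ r / t := by
    rw [le_div_iff₀ ht]
    linarith
  have hX0 : 0 < r / t := by positivity
  obtain ⟨L, hL1, hL2, hL3⟩ := hL (r / t) hX1
  have h6 := hL3 6 le_rfl
  have hη : (1 + (L : ℝ)) ^ 6 * ((2 : ℝ) ^ L)⁻¹ * (r / t) ^ Cf ≤ Cn * (r / t) ^ (-e0) := by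
    have h7 : (1 + (L : ℝ)) ^ 6 * ((2 : ℝ) ^ L)⁻¹ ≤
        (Cn * (r / t) ^ (e0 / 4)) * (r / t) ^ (-(Cf + e0 + e0 / 4)) :=
      mul_le_mul h6 hL2 (by positivity) (by positivity)
    refine (mul_le_mul_of_nonneg_right h7 (by positivity)).trans (le_of_eq ?_)
    have h8 : (r / t) ^ (-e0) = (r / t) ^ (e0 / 4) * (r / t) ^ (-(Cf + e0 + e0 / 4)) *
        (r / t) ^ Cf := by
      rw [← Real.rpow_add hX0, ← Real.rpow_add hX0]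
      congr 1
      ring
    rw [h8]
    ring
  have hW' : W ≤ (C1 * Cn) * (ez * 8 ^ K * s * ((1 + (L : ℝ)) ^ 6 *
      (t ^ (e0 - c) * r ^ (-e0)) + (r / t) ^ (-e0))) := by
    have h9 : (0 : ℝ) ≤ (1 + (L : ℝ)) ^ 6 * (t ^ (e0 - c) * r ^ (-e0)) := by positivity
    have h10 : (1 + (L : ℝ)) ^ 6 * (t ^ (e0 - c) * r ^ (-e0)) +
        (1 + (L : ℝ)) ^ 6 * ((2 : ℝ) ^ L)⁻¹ * (r / t) ^ Cf ≤
        Cn * ((1 + (L : ℝ)) ^ 6 * (t ^ (e0 - c) * r ^ (-e0)) + (r / t) ^ (-e0)) := by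
      nlinarith
    have h11 : (0 : ℝ) ≤ ez * 8 ^ K * s := by positivity
    refine (hW L hL1).trans ((mul_le_mul_of_nonneg_left (mul_le_mul_of_nonneg_left h10 h11)
      hC1).trans (le_of_eq ?_))
    ring
  have h := H c hc (hc1.trans (le_of_eq ec.symm)) d hd (hd1.trans (le_of_eq ed.symm)) k hk
    (hk1.trans (le_of_eq ed.symm)) (C1 * Cn) C2 Cn (by positivity) hC2 hCn t r s ez W P
    ((1 + (L : ℝ)) ^ 6) ((r / t) ^ (-e0)) ht ht1 hr hs hez K (by positivity) h6 (by positivity)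
    le_rfl hW' hP
  rw [eg, edel] at h
  exact h

end

end Vale.Agent.P141.H470.PSnum
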