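import Vale.Agent.P141.H210.GapFD
import Vale.Agent.P141.H470.PSnum2

/-!
# P141, line (A), flow part: the leaf of the shift error from the number of the slot difference

* `fS_PS` : the functional `fS` is the shift error `PS` of `SkelTF`;
* `EWn` : the number of the slot difference in the letters of the bundle;
* `leafS_of_EWn : EWn C1 C2 → LeafS`.
-/

namespace Vale.Agent.P141.H470.FS

open Finset Matrix
open Vale.Agent.P141.PL (Pt iv hs ix mem_iv ix_ix cb mem_cb cx)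
open Vale.Agent.P141.PL.H315 (Tri)
open Vale.Agent.P141.H48 (US ES BSl sst)
open Vale.Agent.P141.H677 (rt)
open Vale.Agent.P141.H677.Sk
open Vale.Agent.P141.H401 (PartX PartF)
open Vale.Agent.P141.H305 (ClsM kapM)
open Vale.Agent.P141.H58 (eP eW PS_le)

noncomputable section

open scoped Classical

/-- **The shift error in the letters of the leaves.** -/
theorem fS_PS (ι : Type) [Fintype ι] [DecidableEq ι] (l : ℝ) (o : ℤ) (Al : ℕ → Pt → Prop) (K : ℕ)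
    (x : Pt) (u : ℤ → ℤ → ι → ℝ) (A : FamA) (b C : FamV ι) (sg : ℕ → Pt → ℝ) :
    fS ι l o Al K x u A b C sg = PS ι Al o K (cx K x) sg l u A b C := rfl

/-- **The number of the slot difference**, in the letters of the bundle. -/
def EWn (C1 C2 : ℝ) : Prop :=
  ∀ (ι : Type) [Fintype ι] [DecidableEq ι] (q : H401.Num) (n : ℕ) (ez : ℝ)
    (F1 F2 F3 : ℕ → Pt → ℝ) (o : ℤ) (K : ℕ) (x : Pt) (s r : ℝ) (U : Tri) (g : ℤ → ℤ → ℝ)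
    (u v : ℤ → ℤ → ι → ℝ) (A : FamA) (b C : FamV ι) (Q1 Q2 Q3 : ℕ → Pt → Prop)
    (v' : ℤ → ℤ → ι → ℝ) (sg : ℕ → Pt → ℝ),
    FDs q n ez F1 F2 F3 K x s r U g u v A b C Q1 Q2 Q3 v' →
    ClsM K x s r (q.L * q.t ^ (2 - q.c) * √s) (kapM q.L q.t q.a s r) U g u v →
    (o = 1 ∨ o = -1) → K ≤ n → 0 < q.t → q.t ≤ 1 → 0 < q.d → 1 ≤ q.L → 0 < s → 1 ≤ r → 0 ≤ ez →
    (∀ k m, |sg k m| ≤ 1) → ∀ (Ln : ℕ) (h : ℤ),
    eW (q.al U K) o K (cx K x) sg (q.lam s r) u C h ≤ 8 ^ K * s * ez *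
      (C1 * (1 + (Ln : ℝ)) ^ 3 * (q.L * q.t ^ (2 - q.c) * √s / q.lam s r) +
        C2 * (((Ln : ℝ) + 2) ^ 2 + 2) / 2 ^ Ln * (lam1 q s r / q.lam s r))

theorem P_div {q : H401.Num} {s r : ℝ} (ht : 0 < q.t) (hs : 0 < s) (hr : 1 ≤ r) :
    q.L * q.t ^ (2 - q.c) * √s / q.lam s r = q.L * (q.t ^ (q.e0 - q.c) * r ^ (-q.e0)) := by
  have hr0 : 0 < r := by linarith
  have hs2 : 0 < √s := Real.sqrt_pos.2 hs
  unfold H401.Num.lam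
  rw [div_eq_iff (by positivity)]
  have e1 : q.t ^ (2 - q.c) = q.t ^ (q.e0 - q.c) * q.t ^ (2 - q.e0) := by
    rw [← Real.rpow_add ht]; congr 1; ring
  have e2 : r ^ (-q.e0) * r ^ q.e0 = 1 := by
    rw [← Real.rpow_add hr0]; simp
  rw [e1]
  calc q.L * (q.t ^ (q.e0 - q.c) * q.t ^ (2 - q.e0)) * √s
      = q.L * (q.t ^ (q.e0 - q.c) * q.t ^ (2 - q.e0)) * √s * (r ^ (-q.e0) * r ^ q.e0) := by
        rw [e2, mul_one]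
    _ = _ := by ring

theorem lam1_div {q : H401.Num} {s r : ℝ} (ht : 0 < q.t) (ht1 : q.t ≤ 1) (hs : 0 < s)
    (hr : 1 ≤ r) (he : 0 ≤ q.e0) : lam1 q s r / q.lam s r ≤ (r / q.t) ^ (10 : ℝ) := by
  have hr0 : 0 < r := by linarith
  have hs2 : 0 < √s := Real.sqrt_pos.2 hs
  unfold H401.Num.lam lam1
  rw [div_le_iff₀ (by positivity), PSnum.rt_pow ht hr0]
  have h1 : q.t ^ (-8 : ℝ) ≤ q.t ^ (-(10 : ℝ)) * q.t ^ (2 - q.e0) := by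
    rw [← Real.rpow_add ht]
    exact Real.rpow_le_rpow_of_exponent_ge ht ht1 (by linarith)
  have h2 : r ^ (8 : ℝ) ≤ r ^ (10 : ℝ) * r ^ q.e0 := by
    rw [← Real.rpow_add hr0]
    exact Real.rpow_le_rpow_of_exponent_le hr (by linarith)
  calc q.t ^ (-8 : ℝ) * √s * r ^ (8 : ℝ)
      ≤ (q.t ^ (-(10 : ℝ)) * q.t ^ (2 - q.e0)) * √s * (r ^ (10 : ℝ) * r ^ q.e0) :=
        mul_le_mul (mul_le_mul_of_nonneg_right h1 hs2.le) h2 (by positivity) (by positivity)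
    _ = _ := by ring

/-- a common bound of finitely many numbers -/
theorem exists_max {α : Type*} {S : Finset α} (hS : S.Nonempty) (f : α → ℝ) :
    ∃ W : ℝ, (∀ h ∈ S, f h ≤ W) ∧ ∀ B : ℝ, (∀ h ∈ S, f h ≤ B) → W ≤ B :=
  ⟨S.sup' hS f, fun h hh => le_sup' f hh, fun _ hB => sup'_le hS f hB⟩

/-- the real inequality between the two forms of the number -/
theorem num_step {C1 C2 L X Y Z G : ℝ} (hC1 : 0 ≤ C1) (hC2 : 0 ≤ C2) (hL : 1 ≤ L) (hX : 0 ≤ X)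
    (hZ : Z ≤ Y) (hY : 0 ≤ Y) (hG : 0 ≤ G) (Ln : ℕ) :
    G * (C1 * (1 + (Ln : ℝ)) ^ 3 * (L * X) + C2 * (((Ln : ℝ) + 2) ^ 2 + 2) / 2 ^ Ln * Z) ≤
      (C1 * L + 6 * C2) * (G * ((1 + (Ln : ℝ)) ^ 6 * X + (1 + (Ln : ℝ)) ^ 6 *
        ((2 : ℝ) ^ Ln)⁻¹ * Y)) := by
  have c2 : (0 : ℝ) ≤ Ln := Nat.cast_nonneg _
  have b0 : (1 : ℝ) ≤ 1 + (Ln : ℝ) := by linarith
  have b1 : (1 + (Ln : ℝ)) ^ 3 ≤ (1 + (Ln : ℝ)) ^ 6 := pow_le_pow_right₀ b0 (by norm_num)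
  have b2 : ((Ln : ℝ) + 2) ^ 2 + 2 ≤ 6 * (1 + (Ln : ℝ)) ^ 6 := by
    have c1 : (1 + (Ln : ℝ)) ^ 2 ≤ (1 + (Ln : ℝ)) ^ 6 := pow_le_pow_right₀ b0 (by norm_num)
    nlinarith
  have z0 : (0 : ℝ) < ((2 : ℝ) ^ Ln)⁻¹ := by positivity
  have d1 : 0 ≤ C1 * L + 6 * C2 := by positivity
  have p1 : C1 * (1 + (Ln : ℝ)) ^ 3 * (L * X) ≤ (C1 * L + 6 * C2) * ((1 + (Ln : ℝ)) ^ 6 * X) := by
    have c3 : C1 * (1 + (Ln : ℝ)) ^ 3 * (L * X) = (C1 * L) * ((1 + (Ln : ℝ)) ^ 3 * X) := by ring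
    rw [c3]
    exact mul_le_mul (by linarith) (mul_le_mul_of_nonneg_right b1 hX) (by positivity) d1
  have p2 : C2 * (((Ln : ℝ) + 2) ^ 2 + 2) / 2 ^ Ln * Z ≤
      (C1 * L + 6 * C2) * ((1 + (Ln : ℝ)) ^ 6 * ((2 : ℝ) ^ Ln)⁻¹ * Y) := by
    have c4 : C2 * (((Ln : ℝ) + 2) ^ 2 + 2) / 2 ^ Ln ≤
        (6 * C2) * ((1 + (Ln : ℝ)) ^ 6 * ((2 : ℝ) ^ Ln)⁻¹) := by
      rw [div_eq_mul_inv]
      have c5 : C2 * (((Ln : ℝ) + 2) ^ 2 + 2) ≤ C2 * (6 * (1 + (Ln : ℝ)) ^ 6) :=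
        mul_le_mul_of_nonneg_left b2 hC2
      refine (mul_le_mul_of_nonneg_right c5 z0.le).trans (le_of_eq ?_)
      ring
    have c6 : (0 : ℝ) ≤ C2 * (((Ln : ℝ) + 2) ^ 2 + 2) / 2 ^ Ln := by positivity
    refine (mul_le_mul_of_nonneg_left hZ c6).trans ((mul_le_mul_of_nonneg_right c4 hY).trans ?_)
    have c7 : (6 * C2) * ((1 + (Ln : ℝ)) ^ 6 * ((2 : ℝ) ^ Ln)⁻¹) * Y =
        (6 * C2) * ((1 + (Ln : ℝ)) ^ 6 * ((2 : ℝ) ^ Ln)⁻¹ * Y) := by ring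
    rw [c7]
    refine mul_le_mul_of_nonneg_right ?_ (by positivity)
    have : 0 ≤ C1 * L := by positivity
    linarith
  refine (mul_le_mul_of_nonneg_left (add_le_add p1 p2) hG).trans (le_of_eq ?_)
  ring

variable {ι : Type} [Fintype ι] [DecidableEq ι]

/-- **The number of the energy factor**, near layers free. -/
theorem eW_of {C1 C2 : ℝ} (hC1 : 0 ≤ C1) (hC2 : 0 ≤ C2) (H : EWn C1 C2) {q : H401.Num} {n : ℕ}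
    {ez : ℝ} {F1 F2 F3 : ℕ → Pt → ℝ} {o : ℤ} {K : ℕ} {x : Pt} {s r : ℝ} {U : Tri}
    {g : ℤ → ℤ → ℝ} {u v : ℤ → ℤ → ι → ℝ} {A : FamA} {b C : FamV ι} {Q1 Q2 Q3 : ℕ → Pt → Prop}
    {v' : ℤ → ℤ → ι → ℝ} {sg : ℕ → Pt → ℝ}
    (hD : FDs q n ez F1 F2 F3 K x s r U g u v A b C Q1 Q2 Q3 v')
    (hcls : ClsM K x s r (q.L * q.t ^ (2 - q.c) * √s) (kapM q.L q.t q.a s r) U g u v)
    (ho : o = 1 ∨ o = -1) (hKn : K ≤ n) (ht : 0 < q.t) (ht1 : q.t ≤ 1) (hd : 0 < q.d)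
    (hL : 1 ≤ q.L) (hs : 0 < s) (hr : 1 ≤ r) (hez : 0 ≤ ez) (he0 : 0 ≤ q.e0)
    (hsg : ∀ k m, |sg k m| ≤ 1) (Ln : ℕ) (h : ℤ) :
    eW (q.al U K) o K (cx K x) sg (q.lam s r) u C h ≤
      (C1 * q.L + 6 * C2) * (ez * 8 ^ K * s * ((1 + (Ln : ℝ)) ^ 6 *
        (q.t ^ (q.e0 - q.c) * r ^ (-q.e0)) +
        (1 + (Ln : ℝ)) ^ 6 * ((2 : ℝ) ^ Ln)⁻¹ * (r / q.t) ^ (10 : ℝ))) := by
  have hr0 : 0 < r := by linarith
  have k1 := H ι q n ez F1 F2 F3 o K x s r U g u v A b C Q1 Q2 Q3 v' sg hD hcls ho hKn ht ht1 hd hL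
    hs hr hez hsg Ln h
  rw [P_div ht hs hr] at k1
  have k2 := lam1_div ht ht1 hs hr he0
  have k3 := num_step hC1 hC2 hL (X := q.t ^ (q.e0 - q.c) * r ^ (-q.e0))
    (G := 8 ^ K * s * ez) (by positivity) k2 (by positivity) (by positivity) Ln
  refine k1.trans (k3.trans (le_of_eq ?_))
  ring

/-- **The shift error from the number of the slot difference, one class.** -/
theorem fS_of {C1 C2 Cn : ℝ} (hC1 : 0 ≤ C1) (hC2 : 0 ≤ C2) (H : EWn C1 C2) {q : H401.Num} {n : ℕ}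
    {ez : ℝ} {F1 F2 F3 : ℕ → Pt → ℝ} {o : ℤ} {K : ℕ} {x : Pt} {s r : ℝ} {U : Tri}
    {g : ℤ → ℤ → ℝ} {u v : ℤ → ℤ → ι → ℝ} {A : FamA} {b C : FamV ι}
    {sg : ℕ → Pt → ℝ} (hD : FD ι q n ez F1 F2 F3 o K x s r U g u v A b C)
    (hcls : ClsM K x s r (q.L * q.t ^ (2 - q.c) * √s) (kapM q.L q.t q.a s r) U g u v)
    (ho : o = 1 ∨ o = -1) (hKn : K ≤ n) (ht : 0 < q.t) (ht1 : q.t ≤ 1) (hc : 0 ≤ q.c)
    (hc1 : q.c ≤ q.e0 / 32) (hd : 0 < q.d) (hd1 : q.d ≤ q.e0 / 32)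
    (hL : 1 ≤ q.L) (hCD : 1 ≤ q.CD) (hcP : 0 ≤ q.cP) (hs : 0 < s) (hr : 1 ≤ r) (hez : 0 ≤ ez)
    (he0 : 0 < q.e0) (hsg : ∀ k m, |sg k m| ≤ 1)
    (HN : ∀ c : ℝ, 0 ≤ c → c ≤ q.e0 / 32 → ∀ d : ℝ, 0 ≤ d → d ≤ q.e0 / 32 → ∀ k : ℝ, 0 ≤ k →
      k ≤ q.e0 / 32 → ∀ C1 C2 : ℝ, 0 ≤ C1 → 0 ≤ C2 →
      ∀ t r s ez W P : ℝ, 0 < t → t ≤ 1 → 1 ≤ r → 0 < s → 0 ≤ ez → ∀ K : ℕ,
      (∀ Ln : ℕ, 1 ≤ Ln → W ≤ C1 * (ez * 8 ^ K * s * ((1 + (Ln : ℝ)) ^ 6 *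
        (t ^ (q.e0 - c) * r ^ (-q.e0)) + (1 + (Ln : ℝ)) ^ 6 * ((2 : ℝ) ^ Ln)⁻¹ *
          (r / t) ^ (10 : ℝ)))) →
      P ≤ C2 * (t ^ (2 - 2 * c - 2 * d - 2 * k) * s ^ (3 / 2 : ℝ) * 8 ^ K) →
      √(3 * W) * √P ≤ √(6 * (C1 * Cn * Cn) * C2) *
        (t ^ (1 + q.e0 / 8) * s ^ (5 / 4 : ℝ) * √ez * 8 ^ K) * r ^ (-(q.e0 / 4))) :
    fS ι (q.lam s r) o (q.al U K) K x u A b C sg ≤
      √(6 * ((C1 * q.L + 6 * C2) * Cn * Cn) * (1345536 * (q.CD * (q.cP + 2)))) *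
        (q.t ^ (1 + q.e0 / 8) * s ^ (5 / 4 : ℝ) * √ez * 8 ^ K) * r ^ (-(q.e0 / 4)) := by
  obtain ⟨Q1, Q2, Q3, v', hD⟩ := hD
  have hne : (cb K 0).Nonempty := ⟨0, by
    rw [mem_cb]
    unfold PL.cx PL.ix
    simp⟩
  obtain ⟨W, hW1, hW2⟩ := exists_max hne fun h : Pt =>
    eW (q.al U K) o K (cx K x) sg (q.lam s r) u C h.2.2
  have hP : ∀ s' ∈ cb K 0, eP K (cx K x) A b s' ≤ (1345536 * (q.CD * (q.cP + 2))) *
      (q.t ^ (2 - 2 * q.c - 2 * q.d - 2 * 0) * s ^ (3 / 2 : ℝ) * 8 ^ K) := by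
    intro s' _
    have k3 := H210.eP_FD hD hKn (by linarith) ht hs s'
    refine k3.trans (le_of_eq ?_)
    unfold H210.gFD
    rw [mul_zero, sub_zero]
    ring
  rw [fS_PS]
  refine (PS_le (q.al U K) o K (cx K x) sg (q.lam s r) u A b C hW1 hP).trans ?_
  refine HN q.c hc hc1 q.d hd.le hd1 0 le_rfl (by positivity) (C1 * q.L + 6 * C2)
    (1345536 * (q.CD * (q.cP + 2))) (by positivity) (by positivity) q.t r s ez W _ ht ht1 hr hs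
    hez K ?_ le_rfl
  intro Ln _
  exact hW2 _ fun h _ => eW_of hC1 hC2 H hD hcls ho hKn ht ht1 hd hL hs hr hez he0.le hsg Ln h.2.2

/-- **The leaf of the shift error from the number of the slot difference.** -/
theorem leafS_of_EWn {C1 C2 : ℝ} (hC1 : 0 ≤ C1) (hC2 : 0 ≤ C2) (H : EWn C1 C2) : LeafS := by
  intro a _ _
  refine ⟨1, one_pos, fun e0 he0 _ => ⟨1, one_pos, fun k8 _ _ => ⟨1, one_pos, fun k3 _ _ => ?_⟩⟩⟩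
  obtain ⟨Cn, hCn, HN⟩ := PSnum.ps_fin (Cf := 10) he0 (by norm_num)
  refine ⟨e0 / 8, e0 / 32, e0 / 32, e0 / 4, by positivity, by positivity, by positivity,
    by positivity, fun c hc hc1 d hd hd1 Kt e cP L hK he hcP hL CD hCD => ?_⟩
  refine ⟨√(6 * ((C1 * L + 6 * C2) * Cn * Cn) * (1345536 * (CD * (cP + 2)))),
    Real.sqrt_nonneg _, ?_⟩
  intro t ht ht1 n ez F1 F2 F3 h1 h3 h2 o ho K hKn x ι _ _ s r U g u v hs hr hcls A b C hD sg hsg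
  exact fS_of hC1 hC2 H hD hcls ho hKn ht ht1 hc hc1 hd hd1 hL hCD hcP hs hr h2.1 he0 hsg HN

end

end Vale.Agent.P141.H470.FS
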