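import Vale.Agent.P141.H103.MidK
import Vale.Agent.P141.H736.Chg

/-!
# P141, line (A), near term: the kill numbers

Two families which agree off the squares `Q` of scale `K` are compared at the middle scale
`K + r` and any outer scales.  The own energy and the plane functional change by at most
`C e √(2 ^ r)` times the area of the squares `Q`: `C` the cap of the partner, `e` the mass of the
lines of scale `K`.
-/

namespace Vale.Agent.P141.H470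

open Finset Matrix Vale.Agent.P141.PL Vale.Agent.P141.H103
open Vale.Agent.P075 (Ix val)
open Vale.Agent.P141.H736 (arQ)

noncomputable section

open scoped Classical

variable {κ κ' : Type*} [Fintype κ] [Fintype κ']

/-! ### quadratic forms of the rows -/

/-- the quadratic form of the rows of `c` over the middle cell `m` of scale `l` -/
def Qf (a l : ℕ) (c : ℤ → ℤ → κ → ℝ) (n m : ℤ) (f : ℤ → ℝ) : ℝ :=
  ∑ x ∈ iv a n, ∑ i, (∑ y ∈ iv l m, f y * c x y i) ^ 2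

/-- the cap of a rectangle -/
def Cp (C : ℝ) (a l : ℕ) (c : ℤ → ℤ → κ → ℝ) (n m : ℤ) : Prop :=
  ∀ f : ℤ → ℝ, Qf a l c n m f ≤ C * 2 ^ a * 2 ^ l * ∑ y ∈ iv l m, f y ^ 2

theorem Qf_nonneg (a l : ℕ) (c : ℤ → ℤ → κ → ℝ) (n m : ℤ) (f : ℤ → ℝ) : 0 ≤ Qf a l c n m f :=
  sum_nonneg fun _ _ => sum_nonneg fun _ _ => sq_nonneg _

/-- Cauchy-Schwarz for double sums -/
theorem cs2 (s : Finset ℤ) (p q : ℤ → κ → ℝ) :
    ∑ x ∈ s, ∑ i, p x i * q x i ≤
      √(∑ x ∈ s, ∑ i, p x i ^ 2) * √(∑ x ∈ s, ∑ i, q x i ^ 2) := by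
  rw [← sum_product' s univ fun x i => p x i * q x i, ← sum_product' s univ fun x i => p x i ^ 2,
    ← sum_product' s univ fun x i => q x i ^ 2]
  exact Real.sum_mul_le_sqrt_mul_sqrt _ _ _

/-- **change of the form** -/
theorem Qf_diff {C : ℝ} {a l : ℕ} {c : ℤ → ℤ → κ → ℝ} {n m : ℤ} (hC : Cp C a l c n m)
    (f f' : ℤ → ℝ) : Qf a l c n m f' - Qf a l c n m f ≤
      C * 2 ^ a * 2 ^ l * (√(∑ y ∈ iv l m, (f' y - f y) ^ 2) * √(∑ y ∈ iv l m, (f' y + f y) ^ 2)) := by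
  have e : Qf a l c n m f' - Qf a l c n m f = ∑ x ∈ iv a n, ∑ i,
      (∑ y ∈ iv l m, (f' y - f y) * c x y i) * (∑ y ∈ iv l m, (f' y + f y) * c x y i) := by
    unfold Qf
    rw [← sum_sub_distrib]
    refine sum_congr rfl fun x _ => ?_
    rw [← sum_sub_distrib]
    refine sum_congr rfl fun i _ => ?_
    simp only [sub_mul, add_mul, sum_sub_distrib, sum_add_distrib]
    ring
  have h1 := hC fun y => f' y - f y
  have h2 := hC fun y => f' y + f y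
  rw [e]
  refine (cs2 _ _ _).trans ?_
  have k1 : √(∑ x ∈ iv a n, ∑ i, (∑ y ∈ iv l m, (f' y - f y) * c x y i) ^ 2) ≤
      √(C * 2 ^ a * 2 ^ l * ∑ y ∈ iv l m, (f' y - f y) ^ 2) := Real.sqrt_le_sqrt h1
  have k2 : √(∑ x ∈ iv a n, ∑ i, (∑ y ∈ iv l m, (f' y + f y) * c x y i) ^ 2) ≤
      √(C * 2 ^ a * 2 ^ l * ∑ y ∈ iv l m, (f' y + f y) ^ 2) := Real.sqrt_le_sqrt h2
  refine (mul_le_mul k1 k2 (Real.sqrt_nonneg _) (Real.sqrt_nonneg _)).trans ?_
  rcases le_or_gt 0 (C * 2 ^ a * 2 ^ l) with h0 | h0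
  · rw [Real.sqrt_mul h0, Real.sqrt_mul h0]
    refine le_of_eq ?_
    rw [mul_mul_mul_comm, Real.mul_self_sqrt h0]
  · have n1 : C * 2 ^ a * 2 ^ l * ∑ y ∈ iv l m, (f' y - f y) ^ 2 ≤ 0 :=
      mul_nonpos_of_nonpos_of_nonneg h0.le (sum_nonneg fun _ _ => sq_nonneg _)
    have g1 : ∑ y ∈ iv l m, (f' y - f y) ^ 2 = 0 := by
      have q := (Qf_nonneg a l c n m fun y => f' y - f y).trans h1
      have q2 : 0 ≤ ∑ y ∈ iv l m, (f' y - f y) ^ 2 := sum_nonneg fun _ _ => sq_nonneg _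
      nlinarith
    rw [g1]
    simp

/-- the change, sum over the labels of a row -/
theorem row_diff {C : ℝ} {a l : ℕ} {c : ℤ → ℤ → κ' → ℝ} {n m : ℤ} (hC0 : 0 ≤ C)
    (hC : Cp C a l c n m) (f f' : ℤ → κ → ℝ) {D E : ℝ}
    (hD : ∑ i, ∑ y ∈ iv l m, (f' y i - f y i) ^ 2 ≤ D)
    (hE : ∑ i, ∑ y ∈ iv l m, (f' y i + f y i) ^ 2 ≤ E) :
    ∑ i, Qf a l c n m (fun y => f' y i) - ∑ i, Qf a l c n m (fun y => f y i) ≤
      C * 2 ^ a * 2 ^ l * (√D * √E) := by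
  rw [← sum_sub_distrib]
  refine (sum_le_sum fun i _ => Qf_diff hC (fun y => f y i) fun y => f' y i).trans ?_
  rw [← mul_sum]
  refine mul_le_mul_of_nonneg_left ?_ (by positivity)
  refine (Real.sum_mul_le_sqrt_mul_sqrt _ _ _).trans ?_
  refine mul_le_mul (Real.sqrt_le_sqrt ?_) (Real.sqrt_le_sqrt ?_) (Real.sqrt_nonneg _)
    (Real.sqrt_nonneg _)
  · refine le_trans (le_of_eq (sum_congr rfl fun i _ => ?_)) hD
    exact Real.sq_sqrt (sum_nonneg fun _ _ => sq_nonneg _)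
  · refine le_trans (le_of_eq (sum_congr rfl fun i _ => ?_)) hE
    exact Real.sq_sqrt (sum_nonneg fun _ _ => sq_nonneg _)

/-! ### the affected squares of a row -/

/-- number of the affected squares of scale `K` of the row `x` over the middle cell `m` of scale
`K + r` -/
def kp (K r : ℕ) (Q : ℤ → ℤ → Prop) (x m : ℤ) : ℝ :=
  ∑ m' ∈ iv r m, if Q (ix K x) m' then (1 : ℝ) else 0

theorem kp_nonneg (K r : ℕ) (Q : ℤ → ℤ → Prop) (x m : ℤ) : 0 ≤ kp K r Q x m :=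
  sum_nonneg fun _ _ => by split_ifs <;> norm_num

theorem kp_le_sq (K r : ℕ) (Q : ℤ → ℤ → Prop) (x m : ℤ) : kp K r Q x m ≤ kp K r Q x m ^ 2 := by
  unfold kp
  rw [sum_boole]
  set j := ((iv r m).filter fun m' => Q (ix K x) m').card
  have h : j ≤ j ^ 2 := by
    rcases Nat.eq_zero_or_pos j with h | h
    · rw [h]; norm_num
    · exact Nat.le_self_pow (by norm_num) j
  exact_mod_cast h

/-- a cell of scale `K + r` is cut into cells of scale `K` -/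
theorem sum_cut (K r : ℕ) (m : ℤ) (f : ℤ → ℝ) :
    ∑ y ∈ iv (K + r) m, f y = ∑ m' ∈ iv r m, ∑ y ∈ iv K m', f y := by
  have h := H804.iv_sum (N := K + r) (k := K) (by omega) m f
  rw [← h]
  congr 2
  omega

/-- families which agree off the squares `Q` of scale `K` -/
def AgrQ (N : ℕ) (R S : ℤ) (K : ℕ) (Q : ℤ → ℤ → Prop) (b' b : ℤ → ℤ → κ → ℝ) : Prop :=
  ∀ n ∈ iv (N - K) R, ∀ m ∈ iv (N - K) S, ¬ Q n m → ∀ x ∈ iv K n, ∀ y ∈ iv K m, b' x y = b x y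

/-- masses of the lines of scale `K` -/
def Ln (N : ℕ) (R S : ℤ) (K : ℕ) (e : ℝ) (b : ℤ → ℤ → κ → ℝ) : Prop :=
  ∀ x ∈ iv N R, ∀ m ∈ iv (N - K) S, ∑ y ∈ iv K m, ∑ i, b x y i ^ 2 ≤ e * 2 ^ K

theorem mem_sub {N k r : ℕ} (h : k + r ≤ N) {S m m' : ℤ} (hm : m ∈ iv (N - (k + r)) S)
    (hm' : m' ∈ iv r m) : m' ∈ iv (N - k) S := by
  rw [mem_iv] at hm hm' ⊢
  rw [← hm, ← hm', ix_ix]
  congr 1
  omega

variable {N K r : ℕ} {R S : ℤ} {Q : ℤ → ℤ → Prop} {e : ℝ} {b b' : ℤ → ℤ → κ → ℝ}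

/-- the mass of the difference -/
theorem diff_mass (h : K + r ≤ N) (hA : AgrQ N R S K Q b' b) (hb : Ln N R S K e b)
    (hb' : Ln N R S K e b') {x m : ℤ} (hx : x ∈ iv N R) (hm : m ∈ iv (N - (K + r)) S) :
    ∑ i, ∑ y ∈ iv (K + r) m, (b' x y i - b x y i) ^ 2 ≤ 4 * e * 2 ^ K * kp K r Q x m := by
  rw [sum_comm, sum_cut, kp, mul_sum]
  refine sum_le_sum fun m' hm' => ?_
  have hm2 := mem_sub h hm hm'
  split_ifs with hq
  · have h1 := hb x hx m' hm2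
    have h2 := hb' x hx m' hm2
    have h3 : ∑ y ∈ iv K m', ∑ i, (b' x y i - b x y i) ^ 2 ≤
        2 * (∑ y ∈ iv K m', ∑ i, b' x y i ^ 2) + 2 * ∑ y ∈ iv K m', ∑ i, b x y i ^ 2 := by
      rw [mul_sum, mul_sum, ← sum_add_distrib]
      refine sum_le_sum fun y _ => ?_
      rw [mul_sum, mul_sum, ← sum_add_distrib]
      refine sum_le_sum fun i _ => ?_
      nlinarith [sq_nonneg (b' x y i + b x y i)]
    linarith
  · have hn : ix K x ∈ iv (N - K) R := by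
      rw [mem_iv] at hx ⊢
      rw [ix_ix, ← hx]
      congr 1
      omega
    have h4 : ∀ y ∈ iv K m', ∑ i, (b' x y i - b x y i) ^ 2 = 0 := by
      intro y hy
      rw [hA _ hn m' hm2 hq x (mem_iv.2 rfl) y hy]
      simp
    rw [sum_congr rfl h4, sum_const_zero, mul_zero]

/-- the mass of the sum -/
theorem sum_mass (h : K + r ≤ N) (hb : Ln N R S K e b) (hb' : Ln N R S K e b') {x m : ℤ}
    (hx : x ∈ iv N R) (hm : m ∈ iv (N - (K + r)) S) :
    ∑ i, ∑ y ∈ iv (K + r) m, (b' x y i + b x y i) ^ 2 ≤ 4 * e * 2 ^ (K + r) := by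
  rw [sum_comm, sum_cut]
  have key : ∀ m' ∈ iv r m, ∑ y ∈ iv K m', ∑ i, (b' x y i + b x y i) ^ 2 ≤ 4 * e * 2 ^ K := by
    intro m' hm'
    have hm2 := mem_sub h hm hm'
    have h1 := hb x hx m' hm2
    have h2 := hb' x hx m' hm2
    have h3 : ∑ y ∈ iv K m', ∑ i, (b' x y i + b x y i) ^ 2 ≤
        2 * (∑ y ∈ iv K m', ∑ i, b' x y i ^ 2) + 2 * ∑ y ∈ iv K m', ∑ i, b x y i ^ 2 := by
      rw [mul_sum, mul_sum, ← sum_add_distrib]
      refine sum_le_sum fun y _ => ?_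
      rw [mul_sum, mul_sum, ← sum_add_distrib]
      refine sum_le_sum fun i _ => ?_
      nlinarith [sq_nonneg (b' x y i - b x y i)]
    linarith
  refine (sum_le_sum key).trans (le_of_eq ?_)
  rw [sum_const, card_iv, nsmul_eq_mul, pow_add]
  push_cast
  ring

/-- **one row** -/
theorem row_kill {C : ℝ} {a l' : ℕ} {c : ℤ → ℤ → κ' → ℝ} {n' m : ℤ} (hC0 : 0 ≤ C) (he : 0 ≤ e)
    (h : K + r ≤ N) (hl : l' = K + r) (hA : AgrQ N R S K Q b' b) (hb : Ln N R S K e b)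
    (hb' : Ln N R S K e b') {x : ℤ} (hx : x ∈ iv N R) (hm : m ∈ iv (N - (K + r)) S)
    (hC : Cp C a l' c n' m) :
    ∑ i, Qf a l' c n' m (fun y => b' x y i) - ∑ i, Qf a l' c n' m (fun y => b x y i) ≤
      C * 2 ^ a * 2 ^ l' * (4 * e * 2 ^ K * √(2 ^ r) * kp K r Q x m) := by
  subst hl
  have h1 := row_diff hC0 hC (fun y i => b x y i) (fun y i => b' x y i)
    (diff_mass h hA hb hb' hx hm) (sum_mass h hb hb' hx hm)
  refine h1.trans (mul_le_mul_of_nonneg_left ?_ (by positivity))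
  have hk := kp_nonneg K r Q x m
  have hk2 := kp_le_sq K r Q x m
  rw [← Real.sqrt_mul (by positivity)]
  refine Real.sqrt_le_iff.2 ⟨by positivity, ?_⟩
  have e1 : (4 * e * 2 ^ K * √(2 ^ r) * kp K r Q x m) ^ 2 =
      4 * e * 2 ^ K * (4 * e * 2 ^ (K + r)) * kp K r Q x m ^ 2 := by
    have e2 : (√(2 ^ r : ℝ)) ^ 2 = 2 ^ r := Real.sq_sqrt (by positivity)
    calc (4 * e * 2 ^ K * √(2 ^ r) * kp K r Q x m) ^ 2 =
        (4 * e * 2 ^ K) ^ 2 * (√(2 ^ r : ℝ)) ^ 2 * kp K r Q x m ^ 2 := by ring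
      _ = _ := by rw [e2, pow_add]; ring
  rw [e1]
  have h2 : 0 ≤ 4 * e * 2 ^ K * (4 * e * 2 ^ (K + r)) := by positivity
  have h3 := mul_le_mul_of_nonneg_left hk2 h2
  linarith

/-! ### traces -/

/-- the trace of the product of two unweighted Gram matrices -/
theorem tr_un (a a' l : ℕ) (b : ℤ → ℤ → κ → ℝ) (c : ℤ → ℤ → κ' → ℝ) [DecidableEq κ]
    [DecidableEq κ'] (n n' m : ℤ) :
    (QW a l b (fun _ => 1) n m * QW a' l c (fun _ => 1) n' m).trace =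
      ((2 : ℝ) ^ a * 2 ^ a')⁻¹ * (((2 : ℝ) ^ l)⁻¹ ^ 2 *
        ∑ x ∈ iv a n, ∑ i, Qf a' l c n' m fun y => b x y i) := by
  rw [tr_QW]
  congr 1
  rw [mul_sum]
  refine sum_congr rfl fun x _ => ?_
  have e : ∀ x', ((XR l b c x x' m)ᵀ * ((1 : Matrix κ κ ℝ) * XR l b c x x' m *
      (1 : Matrix κ' κ' ℝ))).trace =
      ((2 : ℝ) ^ l)⁻¹ ^ 2 * ∑ i, ∑ j, (∑ y ∈ iv l m, b x y i * c x' y j) ^ 2 := by
    intro x'
    rw [Matrix.one_mul, Matrix.mul_one]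
    have e1 : ∀ i j, XR l b c x x' m i j = ((2 : ℝ) ^ l)⁻¹ * ∑ y ∈ iv l m, b x y i * c x' y j := by
      intro i j
      simp [XR, Matrix.sum_apply, vecMulVec_apply]
    simp only [Matrix.trace, Matrix.diag, Matrix.mul_apply, transpose_apply, e1]
    rw [sum_comm, mul_sum]
    refine sum_congr rfl fun i _ => ?_
    rw [mul_sum]
    exact sum_congr rfl fun j _ => by ring
  rw [sum_congr rfl fun x' _ => e x', ← mul_sum]
  congr 1
  unfold Qf
  rw [sum_comm]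

theorem QK_one [DecidableEq κ] (b : ℤ → ℤ → κ → ℝ) (k a : ℕ) (n m : ℤ) :
    QK b (fun _ _ _ => (1 : Matrix κ κ ℝ)) k a n m = QW a k b (fun _ => 1) n m := by
  show QW a k b (fun _ => (1 : Matrix κ κ ℝ)⁻¹) n m = _
  rw [inv_one]

/-- one side of a node -/
theorem side_kill [DecidableEq κ] [DecidableEq κ'] {C : ℝ} {a a' : ℕ} {c : ℤ → ℤ → κ' → ℝ}
    {n n' m : ℤ} (hC0 : 0 ≤ C) (he : 0 ≤ e) (h : K + r ≤ N) (ha : a ≤ N) (hA : AgrQ N R S K Q b' b)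
    (hb : Ln N R S K e b) (hb' : Ln N R S K e b') (hn : n ∈ iv (N - a) R)
    (hm : m ∈ iv (N - (K + r)) S) (hC : Cp C a' (K + r) c n' m) :
    (QW a (K + r) b' (fun _ => 1) n m * QW a' (K + r) c (fun _ => 1) n' m).trace ≤
      (QW a (K + r) b (fun _ => 1) n m * QW a' (K + r) c (fun _ => 1) n' m).trace +
        4 * C * e * (√(2 ^ r) * ((2 : ℝ) ^ r)⁻¹) *
          (((2 : ℝ) ^ a)⁻¹ * ∑ x ∈ iv a n, kp K r Q x m) := by
  rw [tr_un, tr_un]
  have hx : ∀ x ∈ iv a n, x ∈ iv N R := by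
    intro x hx
    rw [mem_iv] at hn hx ⊢
    rw [← hn, ← hx, ix_ix]
    congr 1
    omega
  have h1 : ∑ x ∈ iv a n, ∑ i, Qf a' (K + r) c n' m (fun y => b' x y i) ≤
      ∑ x ∈ iv a n, ∑ i, Qf a' (K + r) c n' m (fun y => b x y i) +
        ∑ x ∈ iv a n, C * 2 ^ a' * 2 ^ (K + r) * (4 * e * 2 ^ K * √(2 ^ r) * kp K r Q x m) := by
    rw [← sum_add_distrib]
    refine sum_le_sum fun x hx' => ?_
    have := row_kill hC0 he h rfl hA hb hb' (hx x hx') hm hC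
    linarith
  have h2 : (0 : ℝ) ≤ ((2 : ℝ) ^ a * 2 ^ a')⁻¹ * ((2 : ℝ) ^ (K + r))⁻¹ ^ 2 := by positivity
  have h3 := mul_le_mul_of_nonneg_left h1 h2
  rw [mul_add, mul_assoc, mul_assoc] at h3
  refine h3.trans (le_of_eq ?_)
  congr 1
  rw [← mul_sum, ← mul_sum, pow_add]
  have e1 : (2 : ℝ) ^ a ≠ 0 := by positivity
  have e2 : (2 : ℝ) ^ a' ≠ 0 := by positivity
  have e3 : (2 : ℝ) ^ K ≠ 0 := by positivity
  have e4 : (2 : ℝ) ^ r ≠ 0 := by positivity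
  field_simp

/-- **One node.** -/
theorem node_kill [DecidableEq κ] [DecidableEq κ'] {C C' e' : ℝ} {a a' : ℕ}
    {c c' : ℤ → ℤ → κ' → ℝ} {T : ℤ} {Q' : ℤ → ℤ → Prop} {n n' m : ℤ} (hC0 : 0 ≤ C)
    (hC0' : 0 ≤ C') (he : 0 ≤ e) (he' : 0 ≤ e') (h : K + r ≤ N) (ha : a ≤ N) (ha' : a' ≤ N)
    (hA : AgrQ N R S K Q b' b) (hA' : AgrQ N T S K Q' c' c)
    (hb : Ln N R S K e b) (hb' : Ln N R S K e b') (hc : Ln N T S K e' c) (hc' : Ln N T S K e' c')
    (hn : n ∈ iv (N - a) R) (hn' : n' ∈ iv (N - a') T)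
    (hm : m ∈ iv (N - (K + r)) S) (hC : Cp C a (K + r) b n m) (hC' : Cp C' a' (K + r) c' n' m) :
    (QW a (K + r) b' (fun _ => 1) n m * QW a' (K + r) c' (fun _ => 1) n' m).trace ≤
      (QW a (K + r) b (fun _ => 1) n m * QW a' (K + r) c (fun _ => 1) n' m).trace +
        (4 * C' * e * (√(2 ^ r) * ((2 : ℝ) ^ r)⁻¹) *
          (((2 : ℝ) ^ a)⁻¹ * ∑ x ∈ iv a n, kp K r Q x m) +
        4 * C * e' * (√(2 ^ r) * ((2 : ℝ) ^ r)⁻¹) *
          (((2 : ℝ) ^ a')⁻¹ * ∑ x ∈ iv a' n', kp K r Q' x m)) := by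
  have h1 := side_kill hC0' he h ha hA hb hb' hn hm hC'
  have h2 := side_kill hC0 he' h ha' hA' hc hc' hn' hm hC
  have c1 := trace_mul_comm (QW a (K + r) b (fun _ => 1) n m) (QW a' (K + r) c' (fun _ => 1) n' m)
  have c2 := trace_mul_comm (QW a (K + r) b (fun _ => 1) n m) (QW a' (K + r) c (fun _ => 1) n' m)
  linarith

/-! ### sums over the root -/

theorem sum_kp (h : K + r ≤ N) (R S : ℤ) (Q : ℤ → ℤ → Prop) :
    ∑ m ∈ iv (N - (K + r)) S, ∑ x ∈ iv N R, kp K r Q x m = ((2 : ℝ) ^ K)⁻¹ * arQ N R S K Q := by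
  rw [sum_comm]
  have e1 : ∀ x : ℤ, ∑ m ∈ iv (N - (K + r)) S, kp K r Q x m =
      ∑ m' ∈ iv (N - K) S, if Q (ix K x) m' then (1 : ℝ) else 0 := by
    intro x
    have h2 := H804.iv_sum (N := N - K) (k := r) (by omega) S
      fun m' => if Q (ix K x) m' then (1 : ℝ) else 0
    rw [← h2]
    have e2 : N - K - r = N - (K + r) := by omega
    rw [e2]
    rfl
  rw [sum_congr rfl fun x _ => e1 x, sum_comm, arQ]
  have e3 : ∀ m' : ℤ, ∑ x ∈ iv N R, (if Q (ix K x) m' then (1 : ℝ) else 0) =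
      2 ^ K * ∑ n ∈ iv (N - K) R, if Q n m' then (1 : ℝ) else 0 := by
    intro m'
    have h2 := H804.iv_sum (N := N) (k := K) (by omega) R
      fun x => if Q (ix K x) m' then (1 : ℝ) else 0
    rw [← h2, mul_sum]
    refine sum_congr rfl fun n _ => ?_
    have h3 : ∀ x ∈ iv K n, (if Q (ix K x) m' then (1 : ℝ) else 0) =
        if Q n m' then (1 : ℝ) else 0 := by
      intro x hx
      rw [mem_iv.1 hx]
    rw [sum_congr rfl h3, sum_const, card_iv, nsmul_eq_mul]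
    push_cast
    ring
  rw [sum_congr rfl fun m' _ => e3 m', ← mul_sum]
  have e4 : (4 : ℝ) ^ K = 2 ^ K * 2 ^ K := by rw [← mul_pow]; norm_num
  rw [e4]
  have e5 : (2 : ℝ) ^ K ≠ 0 := by positivity
  field_simp

/-- sum of the charges of a side over the rectangles of outer scale `a` -/
theorem sum_side {a : ℕ} (h : K + r ≤ N) (ha : a ≤ N) (R S : ℤ) (Q : ℤ → ℤ → Prop) :
    ∑ m ∈ iv (N - (K + r)) S, ∑ n ∈ iv (N - a) R,
      (((2 : ℝ) ^ a)⁻¹ * ∑ x ∈ iv a n, kp K r Q x m) =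
        ((2 : ℝ) ^ a)⁻¹ * (((2 : ℝ) ^ K)⁻¹ * arQ N R S K Q) := by
  rw [← sum_kp h R S Q, mul_sum]
  refine sum_congr rfl fun m _ => ?_
  rw [← mul_sum, H804.iv_sum ha R fun x => kp K r Q x m]

/-- **Change of the own energy**, middle scale `K + r`, outer scale `a`. -/
theorem EW_kill [DecidableEq κ] {C : ℝ} {a : ℕ} (hC0 : 0 ≤ C) (he : 0 ≤ e) (h : K + r ≤ N)
    (ha : a ≤ N) (hA : AgrQ N R S K Q b' b) (hb : Ln N R S K e b) (hb' : Ln N R S K e b')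
    (hC : ∀ n ∈ iv (N - a) R, ∀ m ∈ iv (N - (K + r)) S, Cp C a (K + r) b n m)
    (hC' : ∀ n ∈ iv (N - a) R, ∀ m ∈ iv (N - (K + r)) S, Cp C a (K + r) b' n m) :
    EW N R S (K + r) (QK b' (fun _ _ _ => 1) (K + r)) a ≤
      EW N R S (K + r) (QK b (fun _ _ _ => 1) (K + r)) a + 8 * C * e * √(2 ^ r) * arQ N R S K Q := by
  unfold EW
  simp only [QK_one]
  have h1 : ∑ m ∈ iv (N - (K + r)) S, ∑ n ∈ iv (N - a) R,
      (QW a (K + r) b' (fun _ => 1) n m * QW a (K + r) b' (fun _ => 1) n m).trace ≤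
      ∑ m ∈ iv (N - (K + r)) S, ∑ n ∈ iv (N - a) R,
        (QW a (K + r) b (fun _ => 1) n m * QW a (K + r) b (fun _ => 1) n m).trace +
      8 * C * e * (√(2 ^ r) * ((2 : ℝ) ^ r)⁻¹) * ∑ m ∈ iv (N - (K + r)) S, ∑ n ∈ iv (N - a) R,
        (((2 : ℝ) ^ a)⁻¹ * ∑ x ∈ iv a n, kp K r Q x m) := by
    rw [mul_sum, ← sum_add_distrib]
    refine sum_le_sum fun m hm => ?_
    rw [mul_sum, ← sum_add_distrib]
    refine sum_le_sum fun n hn => ?_
    have := node_kill hC0 hC0 he he h ha ha hA hA hb hb' hb hb' hn hn hm (hC n hn m hm)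
      (hC' n hn m hm)
    linarith
  rw [sum_side h ha R S Q] at h1
  refine (mul_le_mul_of_nonneg_left h1 (by positivity)).trans (le_of_eq ?_)
  rw [mul_add]
  congr 1
  rw [pow_add]
  have e1 : (2 : ℝ) ^ a ≠ 0 := by positivity
  have e3 : (2 : ℝ) ^ K ≠ 0 := by positivity
  have e4 : (2 : ℝ) ^ r ≠ 0 := by positivity
  field_simp

/-- **Change of the plane functional**, scale `K + r`. -/
theorem MW_kill [DecidableEq κ] [DecidableEq κ'] {C C' e' : ℝ} {c c' : ℤ → ℤ → κ' → ℝ} {T : ℤ}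
    {Q' : ℤ → ℤ → Prop} (hC0 : 0 ≤ C) (hC0' : 0 ≤ C') (he : 0 ≤ e) (he' : 0 ≤ e')
    (h : K + r ≤ N) (d : ℤ) (hA : AgrQ N R S K Q b' b) (hA' : AgrQ N T S K Q' c' c)
    (hb : Ln N R S K e b) (hb' : Ln N R S K e b') (hc : Ln N T S K e' c) (hc' : Ln N T S K e' c')
    (hC : ∀ n ∈ iv (N - (K + r)) R, ∀ m ∈ iv (N - (K + r)) S, Cp C (K + r) (K + r) b n m)
    (hC' : ∀ n ∈ iv (N - (K + r)) T, ∀ m ∈ iv (N - (K + r)) S, Cp C' (K + r) (K + r) c' n m) :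
    MW N R S T (K + r) d (QK b' (fun _ _ _ => 1) (K + r) (K + r))
        (QK c' (fun _ _ _ => 1) (K + r) (K + r)) ≤
      MW N R S T (K + r) d (QK b (fun _ _ _ => 1) (K + r) (K + r))
        (QK c (fun _ _ _ => 1) (K + r) (K + r)) +
      4 * √(2 ^ r) * (C' * e * arQ N R S K Q + C * e' * arQ N T S K Q') := by
  unfold MW
  simp only [QK_one]
  set w : ℝ := √(2 ^ r) * ((2 : ℝ) ^ r)⁻¹ with hw
  have hw0 : 0 ≤ w := by positivity
  set X : ℤ → ℤ → ℝ := fun n m => ((2 : ℝ) ^ (K + r))⁻¹ * ∑ x ∈ iv (K + r) n, kp K r Q x m with hX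
  set X' : ℤ → ℤ → ℝ := fun n m => ((2 : ℝ) ^ (K + r))⁻¹ * ∑ x ∈ iv (K + r) n, kp K r Q' x m
    with hX'
  have X0 : ∀ n m, 0 ≤ X n m := fun n m =>
    mul_nonneg (by positivity) (sum_nonneg fun _ _ => kp_nonneg ..)
  have X0' : ∀ n m, 0 ≤ X' n m := fun n m =>
    mul_nonneg (by positivity) (sum_nonneg fun _ _ => kp_nonneg ..)
  have h1 : ∑ m ∈ iv (N - (K + r)) S, ∑ n ∈ iv (N - (K + r)) R,
      (if d - m - n ∈ iv (N - (K + r)) T then (QW (K + r) (K + r) b' (fun _ => 1) n m *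
        QW (K + r) (K + r) c' (fun _ => 1) (d - m - n) m).trace else 0) ≤
      ∑ m ∈ iv (N - (K + r)) S, ∑ n ∈ iv (N - (K + r)) R,
        (if d - m - n ∈ iv (N - (K + r)) T then (QW (K + r) (K + r) b (fun _ => 1) n m *
          QW (K + r) (K + r) c (fun _ => 1) (d - m - n) m).trace else 0) +
      (4 * C' * e * w * ∑ m ∈ iv (N - (K + r)) S, ∑ n ∈ iv (N - (K + r)) R, X n m +
        4 * C * e' * w * ∑ m ∈ iv (N - (K + r)) S, ∑ n ∈ iv (N - (K + r)) T, X' n m) := by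
    rw [mul_sum, mul_sum, ← sum_add_distrib, ← sum_add_distrib]
    refine sum_le_sum fun m hm => ?_
    have key := H588.sum_refl_le (N - (K + r)) R T (d - m) (fun n => X' n m) fun n => X0' n m
    have key2 := mul_le_mul_of_nonneg_left key
      (show 0 ≤ 4 * C * e' * w by positivity)
    have h2 : ∑ n ∈ iv (N - (K + r)) R,
        (if d - m - n ∈ iv (N - (K + r)) T then (QW (K + r) (K + r) b' (fun _ => 1) n m *
          QW (K + r) (K + r) c' (fun _ => 1) (d - m - n) m).trace else 0) ≤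
        ∑ n ∈ iv (N - (K + r)) R,
          (if d - m - n ∈ iv (N - (K + r)) T then (QW (K + r) (K + r) b (fun _ => 1) n m *
            QW (K + r) (K + r) c (fun _ => 1) (d - m - n) m).trace else 0) +
        (4 * C' * e * w * ∑ n ∈ iv (N - (K + r)) R, X n m +
          4 * C * e' * w * ∑ n ∈ iv (N - (K + r)) R,
            (if d - m - n ∈ iv (N - (K + r)) T then X' (d - m - n) m else 0)) := by
      rw [mul_sum, mul_sum, ← sum_add_distrib, ← sum_add_distrib]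
      refine sum_le_sum fun n hn => ?_
      by_cases ht : d - m - n ∈ iv (N - (K + r)) T
      · rw [if_pos ht, if_pos ht, if_pos ht]
        exact node_kill hC0 hC0' he he' h h h hA hA' hb hb' hc hc' hn ht hm (hC n hn m hm)
          (hC' _ ht m hm)
      · rw [if_neg ht, if_neg ht, if_neg ht, mul_zero, add_zero, zero_add]
        exact mul_nonneg (by positivity) (X0 n m)
    linarith
  have s1 := sum_side h h R S Q
  have s2 := sum_side h h T S Q'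
  rw [s1, s2] at h1
  refine (mul_le_mul_of_nonneg_left h1 (by positivity)).trans (le_of_eq ?_)
  rw [mul_add]
  congr 1
  have e0 : (4 : ℝ) ^ (K + r) = 2 ^ (K + r) * 2 ^ (K + r) := by rw [← mul_pow]; norm_num
  rw [e0, hw, pow_add]
  have e3 : (2 : ℝ) ^ K ≠ 0 := by positivity
  have e4 : (2 : ℝ) ^ r ≠ 0 := by positivity
  field_simp

/-! ### caps -/

/-- caps pass to coarser cells -/
theorem Cp_up {C : ℝ} {j a l : ℕ} {c : ℤ → ℤ → κ → ℝ} (hja : j ≤ a) (hjl : j ≤ l) (ha : a ≤ N)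
    (hl : l ≤ N) (h : ∀ n ∈ iv (N - j) R, ∀ m ∈ iv (N - j) S, Cp C j j c n m) {n m : ℤ}
    (hn : n ∈ iv (N - a) R) (hm : m ∈ iv (N - l) S) : Cp C a l c n m := by
  intro f
  have hn' : ∀ n' ∈ iv (a - j) n, n' ∈ iv (N - j) R := by
    intro n' h'
    rw [mem_iv] at hn h' ⊢
    rw [← hn, ← h', ix_ix]
    congr 1
    omega
  have hm' : ∀ m' ∈ iv (l - j) m, m' ∈ iv (N - j) S := by
    intro m' h'
    rw [mem_iv] at hm h' ⊢
    rw [← hm, ← h', ix_ix]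
    congr 1
    omega
  have e1 : ∀ g : ℤ → ℝ, ∑ y ∈ iv l m, g y = ∑ m' ∈ iv (l - j) m, ∑ y ∈ iv j m', g y :=
    fun g => (H804.iv_sum hjl m g).symm
  have e2 : ∀ g : ℤ → ℝ, ∑ x ∈ iv a n, g x = ∑ n' ∈ iv (a - j) n, ∑ x ∈ iv j n', g x :=
    fun g => (H804.iv_sum hja n g).symm
  have h1 : ∀ x i, (∑ y ∈ iv l m, f y * c x y i) ^ 2 ≤
      2 ^ (l - j) * ∑ m' ∈ iv (l - j) m, (∑ y ∈ iv j m', f y * c x y i) ^ 2 := by
    intro x i
    rw [e1]
    have := sq_sum_le_card_mul_sum_sq (s := iv (l - j) m)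
      (f := fun m' => ∑ y ∈ iv j m', f y * c x y i)
    rw [card_iv] at this
    exact_mod_cast this
  have h2 : Qf a l c n m f ≤ 2 ^ (l - j) * ∑ n' ∈ iv (a - j) n, ∑ m' ∈ iv (l - j) m,
      Qf j j c n' m' f := by
    unfold Qf
    rw [e2, mul_sum]
    refine sum_le_sum fun n' _ => ?_
    rw [sum_comm (s := iv (l - j) m), mul_sum]
    refine sum_le_sum fun x _ => ?_
    rw [sum_comm (s := iv (l - j) m), mul_sum]
    exact sum_le_sum fun i _ => h1 x i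
  refine h2.trans ?_
  have h3 : ∑ n' ∈ iv (a - j) n, ∑ m' ∈ iv (l - j) m, Qf j j c n' m' f ≤
      ∑ _n' ∈ iv (a - j) n, ∑ m' ∈ iv (l - j) m, C * 2 ^ j * 2 ^ j * ∑ y ∈ iv j m', f y ^ 2 :=
    sum_le_sum fun n' h1' => sum_le_sum fun m' h2' => h n' (hn' n' h1') m' (hm' m' h2') f
  refine (mul_le_mul_of_nonneg_left h3 (by positivity)).trans (le_of_eq ?_)
  rw [sum_const, card_iv, nsmul_eq_mul, ← mul_sum, ← e1]
  push_cast
  obtain ⟨p, rfl⟩ := Nat.exists_eq_add_of_le hja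
  obtain ⟨q, rfl⟩ := Nat.exists_eq_add_of_le hjl
  rw [Nat.add_sub_cancel_left, Nat.add_sub_cancel_left, pow_add, pow_add]
  ring

theorem QW_one_apply [DecidableEq κ] (a l : ℕ) (c : ℤ → ℤ → κ → ℝ) (n m : ℤ) (j j' : Ix l) :
    QW a l c (fun _ => 1) n m j j' = ((2 : ℝ) ^ a * 2 ^ l)⁻¹ * ∑ x ∈ iv a n, ∑ i,
      c x (2 ^ l * m + val l j) i * c x (2 ^ l * m + val l j') i := by
  unfold QW
  congr 1
  refine sum_congr rfl fun x _ => ?_
  rw [one_mulVec]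
  rfl

/-- the cap of a Gram matrix -/
theorem Cp_of_psd [DecidableEq κ] {C : ℝ} {a l : ℕ} {c : ℤ → ℤ → κ → ℝ} {n m : ℤ}
    (h : (C • (1 : Matrix (Ix l) (Ix l) ℝ) - QW a l c (fun _ => 1) n m).PosSemidef) :
    Cp C a l c n m := by
  intro f
  have h1 := h.dotProduct_mulVec_nonneg fun j => f (2 ^ l * m + val l j)
  simp only [star_trivial, sub_mulVec, smul_mulVec, one_mulVec, dotProduct_sub,
    dotProduct_smul, smul_eq_mul] at h1
  have e1 : (fun j => f (2 ^ l * m + val l j)) ⬝ᵥ (fun j => f (2 ^ l * m + val l j)) =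
      ∑ y ∈ iv l m, f y ^ 2 := by
    rw [H588.sum_iv]
    exact sum_congr rfl fun j _ => (sq _).symm
  have e2 : (fun j => f (2 ^ l * m + val l j)) ⬝ᵥ (QW a l c (fun _ => 1) n m *ᵥ
      fun j => f (2 ^ l * m + val l j)) = ((2 : ℝ) ^ a * 2 ^ l)⁻¹ * Qf a l c n m f := by
    have e3 : ∀ x i, (∑ y ∈ iv l m, f y * c x y i) ^ 2 = ∑ j : Ix l, ∑ j' : Ix l,
        f (2 ^ l * m + val l j) * (c x (2 ^ l * m + val l j) i *
          c x (2 ^ l * m + val l j') i) * f (2 ^ l * m + val l j') := by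
      intro x i
      rw [H588.sum_iv, sq, sum_mul_sum]
      exact sum_congr rfl fun j _ => sum_congr rfl fun j' _ => by ring
    have e4 : ∀ F : ℤ → κ → Ix l → Ix l → ℝ, ∑ x ∈ iv a n, ∑ i, ∑ j, ∑ j', F x i j j' =
        ∑ j, ∑ j', ∑ x ∈ iv a n, ∑ i, F x i j j' := fun F =>
      calc ∑ x ∈ iv a n, ∑ i, ∑ j, ∑ j', F x i j j'
          = ∑ x ∈ iv a n, ∑ j, ∑ i, ∑ j', F x i j j' := sum_congr rfl fun x _ => sum_comm
        _ = ∑ j, ∑ x ∈ iv a n, ∑ i, ∑ j', F x i j j' := sum_comm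
        _ = ∑ j, ∑ x ∈ iv a n, ∑ j', ∑ i, F x i j j' :=
          sum_congr rfl fun j _ => sum_congr rfl fun x _ => sum_comm
        _ = ∑ j, ∑ j', ∑ x ∈ iv a n, ∑ i, F x i j j' := sum_congr rfl fun j _ => sum_comm
    unfold Qf
    simp only [e3]
    rw [e4, mul_sum]
    simp only [dotProduct, mulVec, QW_one_apply]
    refine sum_congr rfl fun j _ => ?_
    rw [mul_sum, mul_sum]
    refine sum_congr rfl fun j' _ => ?_
    have e5 : ∀ x : ℤ, ∀ i, f (2 ^ l * m + val l j) * (c x (2 ^ l * m + val l j) i *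
        c x (2 ^ l * m + val l j') i) * f (2 ^ l * m + val l j') =
        (f (2 ^ l * m + val l j) * f (2 ^ l * m + val l j')) *
          (c x (2 ^ l * m + val l j) i * c x (2 ^ l * m + val l j') i) := fun x i => by ring
    simp only [e5, ← mul_sum]
    ring
  rw [e1, e2] at h1
  have h2 : (0 : ℝ) < 2 ^ a * 2 ^ l := by positivity
  have h3 : ((2 : ℝ) ^ a * 2 ^ l)⁻¹ * Qf a l c n m f ≤ C * ∑ y ∈ iv l m, f y ^ 2 := by linarith
  rw [inv_mul_le_iff₀ h2] at h3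
  refine h3.trans (le_of_eq ?_)
  ring

/-! ### paths -/

/-- paths of families with labels -/
def PathQ (N : ℕ) (R S : ℤ) (Q : ℕ → ℤ → ℤ → Prop) (b : ℕ → ℤ → ℤ → κ → ℝ) : Prop :=
  ∀ k, k < N → AgrQ N R S k (Q k) (b (k + 1)) (b k)

/-- masses of the lines, the two times of a scale -/
def LnP (N : ℕ) (R S : ℤ) (e : ℝ) (b : ℕ → ℤ → ℤ → κ → ℝ) : Prop :=
  ∀ k, k < N → Ln N R S k e (b k) ∧ Ln N R S k e (b (k + 1))

/-- caps of the squares -/
def CpP (N : ℕ) (R S : ℤ) (C : ℝ) (b : ℕ → ℤ → ℤ → κ → ℝ) : Prop :=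
  ∀ k, k ≤ N → ∀ n ∈ iv (N - k) R, ∀ m ∈ iv (N - k) S, Cp C k k (b k) n m

omit [Fintype κ] in
theorem pathQ_un {F : ℕ → ℤ → ℤ → ℝ} {Q : ℕ → ℤ → ℤ → Prop} (h : H736.Path N R S Q F) :
    PathQ N R S Q fun k => un (F k) := fun k hk n hn m hm hq x hx y hy => by
  funext _
  exact h k hk n hn m hm hq x hx y hy

/-- **Own energies at different times**, labels. -/
theorem EW_time [DecidableEq κ] {C : ℝ} {Q : ℕ → ℤ → ℤ → Prop} {b : ℕ → ℤ → ℤ → κ → ℝ}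
    (hC0 : 0 ≤ C) (he : 0 ≤ e) (hP : PathQ N R S Q b) (hL : LnP N R S e b) (hC : CpP N R S C b)
    {l i a : ℕ} (hi : i + 1 ≤ l) (hl : l ≤ N) (hla : l ≤ a) (ha : a ≤ N) :
    EW N R S l (QK (b (l - i)) (fun _ _ _ => 1) l) a ≤
      EW N R S l (QK (b (l - i - 1)) (fun _ _ _ => 1) l) a +
        8 * C * e * √(2 ^ (i + 1)) * arQ N R S (l - i - 1) (Q (l - i - 1)) := by
  obtain ⟨K, rfl⟩ : ∃ K, l = K + (i + 1) := ⟨l - (i + 1), by omega⟩
  have e1 : K + (i + 1) - i - 1 = K := by omega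
  have e2 : K + (i + 1) - i = K + 1 := by omega
  rw [e1, e2]
  exact EW_kill hC0 he hl ha (hP K (by omega)) (hL K (by omega)).1 (hL K (by omega)).2
    (fun n hn m hm => Cp_up (by omega) (by omega) ha hl (hC K (by omega)) hn hm)
    fun n hn m hm => Cp_up (by omega) (by omega) ha hl (hC (K + 1) (by omega)) hn hm

/-- **Plane functionals at different times**, labels. -/
theorem MW_time [DecidableEq κ] [DecidableEq κ'] {C C' e' : ℝ} {Q Q' : ℕ → ℤ → ℤ → Prop} {T : ℤ}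
    {b : ℕ → ℤ → ℤ → κ → ℝ} {c : ℕ → ℤ → ℤ → κ' → ℝ} (hC0 : 0 ≤ C) (hC0' : 0 ≤ C') (he : 0 ≤ e)
    (he' : 0 ≤ e') (hP : PathQ N R S Q b) (hL : LnP N R S e b) (hC : CpP N R S C b)
    (hP' : PathQ N T S Q' c) (hL' : LnP N T S e' c) (hC' : CpP N T S C' c)
    {l i : ℕ} (hi : i + 1 ≤ l) (hl : l ≤ N) (d : ℤ) :
    MW N R S T l d (QK (b (l - i)) (fun _ _ _ => 1) l l)
        (QK (c (l - i)) (fun _ _ _ => 1) l l) ≤
      MW N R S T l d (QK (b (l - i - 1)) (fun _ _ _ => 1) l l)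
        (QK (c (l - i - 1)) (fun _ _ _ => 1) l l) +
      4 * √(2 ^ (i + 1)) * (C' * e * arQ N R S (l - i - 1) (Q (l - i - 1)) +
        C * e' * arQ N T S (l - i - 1) (Q' (l - i - 1))) := by
  obtain ⟨K, rfl⟩ : ∃ K, l = K + (i + 1) := ⟨l - (i + 1), by omega⟩
  have e1 : K + (i + 1) - i - 1 = K := by omega
  have e2 : K + (i + 1) - i = K + 1 := by omega
  rw [e1, e2]
  exact MW_kill hC0 hC0' he he' hl d (hP K (by omega)) (hP' K (by omega)) (hL K (by omega)).1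
    (hL K (by omega)).2 (hL' K (by omega)).1 (hL' K (by omega)).2
    (fun n hn m hm => Cp_up (by omega) (by omega) hl hl (hC K (by omega)) hn hm)
    fun n hn m hm => Cp_up (by omega) (by omega) hl hl (hC' (K + 1) (by omega)) hn hm

/-- own energies at different times, scalar family -/
theorem EW_timeA {C : ℝ} {Q : ℕ → ℤ → ℤ → Prop} {A : ℕ → ℤ → ℤ → ℝ}
    (hC0 : 0 ≤ C) (he : 0 ≤ e) (hP : H736.Path N R S Q A)
    (hL : LnP N R S e fun k => un (A k)) (hC : CpP N R S C fun k => un (A k))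
    {l i a : ℕ} (hi : i + 1 ≤ l) (hl : l ≤ N) (hla : l ≤ a) (ha : a ≤ N) :
    EW N R S l (PA (A (l - i)) l) a ≤ EW N R S l (PA (A (l - i - 1)) l) a +
        8 * C * e * √(2 ^ (i + 1)) * arQ N R S (l - i - 1) (Q (l - i - 1)) := by
  rw [PA_eq, PA_eq]
  exact EW_time hC0 he (pathQ_un hP) hL hC hi hl hla ha

/-- **Plane functionals of the pair `A`, `b` at different times.** -/
theorem MW_timeA [DecidableEq κ] {C C' e' : ℝ} {Q Q' : ℕ → ℤ → ℤ → Prop} {T : ℤ}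
    {A : ℕ → ℤ → ℤ → ℝ} {b : ℕ → ℤ → ℤ → κ → ℝ} (hC0 : 0 ≤ C) (hC0' : 0 ≤ C') (he : 0 ≤ e)
    (he' : 0 ≤ e') (hP : H736.Path N R S Q A) (hL : LnP N R S e fun k => un (A k))
    (hC : CpP N R S C fun k => un (A k))
    (hP' : PathQ N T S Q' b) (hL' : LnP N T S e' b) (hC' : CpP N T S C' b)
    {l i : ℕ} (hi : i + 1 ≤ l) (hl : l ≤ N) (d : ℤ) :
    MW N R S T l d (PA (A (l - i)) l l) (QK (b (l - i)) (fun _ _ _ => 1) l l) ≤
      MW N R S T l d (PA (A (l - i - 1)) l l) (QK (b (l - i - 1)) (fun _ _ _ => 1) l l) +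
      4 * √(2 ^ (i + 1)) * (C' * e * arQ N R S (l - i - 1) (Q (l - i - 1)) +
        C * e' * arQ N T S (l - i - 1) (Q' (l - i - 1))) := by
  rw [PA_eq, PA_eq]
  exact MW_time hC0 hC0' he he' (pathQ_un hP) hL hC hP' hL' hC' hi hl d

end

end Vale.Agent.P141.H470
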