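import Mathlib

/-!
# P141, line (A), flow part: the numbers of the shift error

* `exists_near` : the number of near layers, `2 ^ (-L) ≤ X ^ (-C0)` and `(1 + L) ^ 6 ≤ C X ^ δ`;
* `ps_num` : `√(3 W) √P ≤ C t ^ (1 + gam) s ^ (5/4) √ez 8 ^ K r ^ (-del)` from the two numbers
  `W ≤ C1 ez 8 ^ K s ((1 + L) ^ 6 t ^ (e0 - c) r ^ (-e0) + η0)` and
  `P ≤ C2 t ^ (2 - 2 c - 2 d - 2 k) s ^ (3/2) 8 ^ K`.
-/

namespace Vale.Agent.P141.H470.PSnum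

open Finset

noncomputable section

/-- **The number of near layers.** -/
theorem exists_near {C0 δ : ℝ} (hC0 : 0 < C0) (hδ : 0 < δ) : ∃ Cn : ℝ, 1 ≤ Cn ∧
    ∀ X : ℝ, 1 ≤ X → ∃ L : ℕ, 1 ≤ L ∧ ((2 : ℝ) ^ L)⁻¹ ≤ X ^ (-C0) ∧
      ∀ j : ℕ, j ≤ 6 → (1 + (L : ℝ)) ^ j ≤ Cn * X ^ δ := by
  set a : ℝ := 2 * C0 with ha
  have hapos : 0 < a := by positivity
  set b : ℝ := 3 + a * (6 / δ) with hb
  have hb1 : 1 ≤ b := by
    have : 0 < a * (6 / δ) := by positivity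
    linarith
  refine ⟨b ^ 6, one_le_pow₀ hb1, fun X hX => ?_⟩
  have hX0 : 0 < X := by linarith
  have hl : 0 ≤ Real.log X := Real.log_nonneg hX
  have h2 : (1 : ℝ) / 2 ≤ Real.log 2 := by
    have := Real.log_two_gt_d9
    linarith
  refine ⟨⌈a * Real.log X⌉₊ + 1, by omega, ?_, ?_⟩
  · have h3 : a * Real.log X ≤ ((⌈a * Real.log X⌉₊ + 1 : ℕ) : ℝ) := by
      push_cast
      linarith [Nat.le_ceil (a * Real.log X)]
    rw [Real.rpow_neg hX0.le]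
    refine inv_anti₀ (Real.rpow_pos_of_pos hX0 _) ?_
    rw [← Real.log_le_log_iff (Real.rpow_pos_of_pos hX0 _) (by positivity), Real.log_pow,
      Real.log_rpow hX0]
    have h4 : C0 * Real.log X ≤ (a * Real.log X) * (1 / 2) := by rw [ha]; nlinarith
    refine h4.trans ?_
    have h5 : 0 ≤ a * Real.log X := by positivity
    nlinarith
  · intro j hj
    have h1 : 1 + ((⌈a * Real.log X⌉₊ + 1 : ℕ) : ℝ) ≤ a * Real.log X + 3 := by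
      push_cast
      have := (Nat.ceil_lt_add_one (by positivity : 0 ≤ a * Real.log X)).le
      linarith
    have hx6 : 1 ≤ X ^ (δ / 6) := Real.one_le_rpow hX (by positivity)
    have h3 : Real.log X ≤ X ^ (δ / 6) / (δ / 6) := Real.log_le_rpow_div hX0.le (by positivity)
    have h4 : X ^ (δ / 6) / (δ / 6) = 6 / δ * X ^ (δ / 6) := by field_simp
    have h5 : 1 + ((⌈a * Real.log X⌉₊ + 1 : ℕ) : ℝ) ≤ b * X ^ (δ / 6) := by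
      rw [h4] at h3
      have h6 : a * Real.log X ≤ a * (6 / δ * X ^ (δ / 6)) :=
        mul_le_mul_of_nonneg_left h3 hapos.le
      rw [hb]
      nlinarith
    have h6 : (0 : ℝ) ≤ 1 + ((⌈a * Real.log X⌉₊ + 1 : ℕ) : ℝ) := by positivity
    have h7 : 1 ≤ b * X ^ (δ / 6) := by nlinarith
    have h8 : (1 + ((⌈a * Real.log X⌉₊ + 1 : ℕ) : ℝ)) ^ j ≤ (b * X ^ (δ / 6)) ^ 6 :=
      (pow_le_pow_left₀ h6 h5 j).trans (pow_le_pow_right₀ h7 hj)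
    refine h8.trans (le_of_eq ?_)
    rw [mul_pow, ← Real.rpow_natCast (X ^ (δ / 6)) 6, ← Real.rpow_mul hX0.le]
    congr 2
    push_cast
    ring

/-- `(r / t) ^ x = t ^ (-x) * r ^ x` -/
theorem rt_pow {t r : ℝ} (ht : 0 < t) (hr : 0 < r) (x : ℝ) : (r / t) ^ x = t ^ (-x) * r ^ x := by
  rw [Real.div_rpow hr.le ht.le, Real.rpow_neg ht.le]
  field_simp

/-- **The numbers of the shift error.** -/
theorem ps_num {e0 : ℝ} (he0 : 0 < e0) : ∃ gam c1 d0 del : ℝ, 0 < gam ∧ 0 < c1 ∧ 0 < d0 ∧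
    0 < del ∧ gam = e0 / 8 ∧ c1 = e0 / 32 ∧ d0 = e0 / 32 ∧ del = e0 / 4 ∧
    ∀ c : ℝ, 0 ≤ c → c ≤ c1 → ∀ d : ℝ, 0 ≤ d → d ≤ d0 → ∀ k : ℝ, 0 ≤ k → k ≤ d0 →
    ∀ C1 C2 Cn : ℝ, 0 ≤ C1 → 0 ≤ C2 → 1 ≤ Cn →
    ∀ t r s ez W P N6 η0 : ℝ, 0 < t → t ≤ 1 → 1 ≤ r → 0 < s → 0 ≤ ez → ∀ K : ℕ,
    0 ≤ N6 → N6 ≤ Cn * (r / t) ^ (e0 / 4) → 0 ≤ η0 → η0 ≤ (r / t) ^ (-e0) →
    W ≤ C1 * (ez * 8 ^ K * s * (N6 * (t ^ (e0 - c) * r ^ (-e0)) + η0)) →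
    P ≤ C2 * (t ^ (2 - 2 * c - 2 * d - 2 * k) * s ^ (3 / 2 : ℝ) * 8 ^ K) →
    √(3 * W) * √P ≤ √(6 * (C1 * Cn) * C2) *
      (t ^ (1 + gam) * s ^ (5 / 4 : ℝ) * √ez * 8 ^ K) * r ^ (-del) := by
  refine ⟨e0 / 8, e0 / 32, e0 / 32, e0 / 4, by positivity, by positivity, by positivity,
    by positivity, rfl, rfl, rfl, rfl, ?_⟩
  intro c hc hc1 d hd hd1 k hk hk1 C1 C2 Cn hC1 hC2 hCn t r s ez W P N6 η0 ht ht1 hr hs hez K
    hN hN6 hη hη0 hW hP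
  have hr0 : 0 < r := by linarith
  have hX1 : 1 ≤ r / t := by
    rw [le_div_iff₀ ht]
    linarith
  have hX0 : 0 < r / t := by positivity
  -- the factor in W
  have f1 : N6 * (t ^ (e0 - c) * r ^ (-e0)) + η0 ≤
      2 * Cn * (t ^ (3 * e0 / 4 - c) * r ^ (-(3 * e0 / 4))) := by
    have g1 : N6 * (t ^ (e0 - c) * r ^ (-e0)) ≤ Cn * (t ^ (3 * e0 / 4 - c) * r ^ (-(3 * e0 / 4))) := by
      refine (mul_le_mul_of_nonneg_right hN6 (by positivity)).trans (le_of_eq ?_)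
      rw [rt_pow ht hr0]
      have e1 : t ^ (3 * e0 / 4 - c) = t ^ (-(e0 / 4)) * t ^ (e0 - c) := by
        rw [← Real.rpow_add ht]; congr 1; ring
      have e2 : r ^ (-(3 * e0 / 4)) = r ^ (e0 / 4) * r ^ (-e0) := by
        rw [← Real.rpow_add hr0]; congr 1; ring
      rw [e1, e2]
      ring
    have g2 : η0 ≤ Cn * (t ^ (3 * e0 / 4 - c) * r ^ (-(3 * e0 / 4))) := by
      have g3 : (r / t) ^ (-e0) ≤ t ^ (3 * e0 / 4 - c) * r ^ (-(3 * e0 / 4)) := by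
        rw [rt_pow ht hr0, neg_neg]
        refine mul_le_mul ?_ ?_ (by positivity) (by positivity)
        · exact Real.rpow_le_rpow_of_exponent_ge ht ht1 (by linarith)
        · exact Real.rpow_le_rpow_of_exponent_le hr (by linarith)
      have g4 : (0 : ℝ) ≤ t ^ (3 * e0 / 4 - c) * r ^ (-(3 * e0 / 4)) := by positivity
      nlinarith
    nlinarith
  have W1 : 3 * W ≤ 6 * (C1 * Cn) * (ez * 8 ^ K * s * (t ^ (3 * e0 / 4 - c) * r ^ (-(3 * e0 / 4)))) := by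
    have g5 : C1 * (ez * 8 ^ K * s * (N6 * (t ^ (e0 - c) * r ^ (-e0)) + η0)) ≤
        C1 * (ez * 8 ^ K * s * (2 * Cn * (t ^ (3 * e0 / 4 - c) * r ^ (-(3 * e0 / 4))))) :=
      mul_le_mul_of_nonneg_left (mul_le_mul_of_nonneg_left f1 (by positivity)) hC1
    nlinarith
  have h1 : √(3 * W) * √P ≤ √(6 * (C1 * Cn) * (ez * 8 ^ K * s *
      (t ^ (3 * e0 / 4 - c) * r ^ (-(3 * e0 / 4))))) *
      √(C2 * (t ^ (2 - 2 * c - 2 * d - 2 * k) * s ^ (3 / 2 : ℝ) * 8 ^ K)) :=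
    mul_le_mul (Real.sqrt_le_sqrt W1) (Real.sqrt_le_sqrt hP) (Real.sqrt_nonneg _)
      (Real.sqrt_nonneg _)
  refine h1.trans ?_
  rw [← Real.sqrt_mul (by positivity)]
  have e1 : 6 * (C1 * Cn) * (ez * 8 ^ K * s * (t ^ (3 * e0 / 4 - c) * r ^ (-(3 * e0 / 4)))) *
      (C2 * (t ^ (2 - 2 * c - 2 * d - 2 * k) * s ^ (3 / 2 : ℝ) * 8 ^ K)) =
      (6 * (C1 * Cn) * C2) * ((t ^ (3 * e0 / 4 - c) * t ^ (2 - 2 * c - 2 * d - 2 * k)) *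
        (s * s ^ (3 / 2 : ℝ)) * ez * (8 ^ K) ^ 2 * r ^ (-(3 * e0 / 4))) := by ring
  rw [e1, Real.sqrt_mul (by positivity)]
  refine (mul_le_mul_of_nonneg_left (?_ : _ ≤ t ^ (1 + e0 / 8) * s ^ (5 / 4 : ℝ) * √ez * 8 ^ K *
    r ^ (-(e0 / 4))) (Real.sqrt_nonneg _)).trans (le_of_eq (mul_assoc _ _ _).symm)
  refine Real.sqrt_le_iff.2 ⟨by positivity, ?_⟩
  have e2 : (t ^ (1 + e0 / 8) * s ^ (5 / 4 : ℝ) * √ez * 8 ^ K * r ^ (-(e0 / 4))) ^ 2 =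
      (t ^ (1 + e0 / 8)) ^ 2 * (s ^ (5 / 4 : ℝ)) ^ 2 * (√ez) ^ 2 * (8 ^ K) ^ 2 *
        (r ^ (-(e0 / 4))) ^ 2 := by ring
  rw [e2, Real.sq_sqrt hez, ← Real.rpow_natCast (t ^ (1 + e0 / 8)), ← Real.rpow_mul ht.le,
    ← Real.rpow_natCast (s ^ (5 / 4 : ℝ)), ← Real.rpow_mul hs.le,
    ← Real.rpow_natCast (r ^ (-(e0 / 4))), ← Real.rpow_mul hr0.le, ← Real.rpow_add ht]
  have e3 : s * s ^ (3 / 2 : ℝ) = s ^ (5 / 4 * ((2 : ℕ) : ℝ)) := by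
    nth_rewrite 1 [← Real.rpow_one s]
    rw [← Real.rpow_add hs]
    congr 1
    push_cast
    norm_num
  rw [e3]
  have g1 : t ^ (3 * e0 / 4 - c + (2 - 2 * c - 2 * d - 2 * k)) ≤
      t ^ ((1 + e0 / 8) * ((2 : ℕ) : ℝ)) := by
    refine Real.rpow_le_rpow_of_exponent_ge ht ht1 ?_
    push_cast
    linarith
  have g2 : r ^ (-(3 * e0 / 4)) ≤ r ^ (-(e0 / 4) * ((2 : ℕ) : ℝ)) := by
    refine Real.rpow_le_rpow_of_exponent_le hr ?_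
    push_cast
    linarith
  refine mul_le_mul ?_ g2 (by positivity) (by positivity)
  refine mul_le_mul_of_nonneg_right ?_ (by positivity)
  refine mul_le_mul_of_nonneg_right ?_ hez
  exact mul_le_mul_of_nonneg_right g1 (by positivity)

end

end Vale.Agent.P141.H470.PSnum
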